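import Vale.Agent.P042.H322.Rep3

/-! (T2) in the form used with the cube theorem: the moment of a homogeneous chaos. -/

namespace Vale.Agent.P042.H322

open Finset

set_option linter.unusedSectionVars false

variable {ι : Type*} [Fintype ι] [DecidableEq ι] {V : ι → Type*} [∀ i, Fintype (V i)]
  [∀ i, DecidableEq (V i)]

/-- homogeneity of the injective bound -/
lemma hom_bound {w : ∀ i, V i → ℝ} (n : ℕ) (J : ℝ) (hJ0 : 0 ≤ J)
    (Φ : Finset ι → (∀ i, V i) → ℂ) (𝓔 : Finset (Finset ι)) (hn : ∀ E ∈ 𝓔, E.card = n)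
    (hJ : ∀ z : ∀ j, V j → ℂ, ∑ j, ∑ a, w j a * ‖z j a‖ ^ 2 ≤ 1 →
      ‖∑ E ∈ 𝓔, ∑ x, Φ E x * ∏ j ∈ E, z j (x j)‖ ≤ J)
    (z : ∀ j, V j → ℂ) (r : ℝ) (hr : 0 ≤ r) (hz : ∑ j, ∑ a, w j a * ‖z j a‖ ^ 2 ≤ r ^ 2) :
    ‖∑ E ∈ 𝓔, ∑ x, Φ E x * ∏ j ∈ E, z j (x j)‖ ≤ J * r ^ n := by
  -- first for positive radius
  have hpos : ∀ t : ℝ, 0 < t → ∑ j, ∑ a, w j a * ‖z j a‖ ^ 2 ≤ t ^ 2 →
      ‖∑ E ∈ 𝓔, ∑ x, Φ E x * ∏ j ∈ E, z j (x j)‖ ≤ J * t ^ n := by
    intro t ht hzt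
    have h1 := hJ (fun j a => ((t⁻¹ : ℝ) : ℂ) * z j a) (by
      have : ∀ j, ∀ a, w j a * ‖((t⁻¹ : ℝ) : ℂ) * z j a‖ ^ 2 = (t⁻¹) ^ 2 * (w j a * ‖z j a‖ ^ 2) := by
        intro j a
        rw [norm_mul, Complex.norm_real, Real.norm_eq_abs, abs_of_pos (inv_pos.mpr ht)]
        ring
      simp only [this, ← mul_sum]
      calc (t⁻¹) ^ 2 * ∑ j, ∑ a, w j a * ‖z j a‖ ^ 2 ≤ (t⁻¹) ^ 2 * t ^ 2 := by gcongr
        _ = 1 := by field_simp)
    have h2 : ∑ E ∈ 𝓔, ∑ x, Φ E x * ∏ j ∈ E, (((t⁻¹ : ℝ) : ℂ) * z j (x j))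
        = (((t⁻¹ : ℝ) : ℂ)) ^ n * ∑ E ∈ 𝓔, ∑ x, Φ E x * ∏ j ∈ E, z j (x j) := by
      rw [mul_sum]
      refine sum_congr rfl fun E hE => ?_
      rw [mul_sum]
      refine sum_congr rfl fun x _ => ?_
      rw [prod_mul_distrib, prod_const, hn E hE]
      ring
    rw [h2, norm_mul, norm_pow, Complex.norm_real, Real.norm_eq_abs,
      abs_of_pos (inv_pos.mpr ht)] at h1
    have ht' : 0 < t ^ n := by positivity
    have h3 : t⁻¹ ^ n = (t ^ n)⁻¹ := by rw [inv_pow]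
    rw [h3, inv_mul_le_iff₀ ht'] at h1
    linarith
  rcases hr.lt_or_eq with h | h
  · exact hpos r h hz
  · -- radius zero
    subst h
    rcases Nat.eq_zero_or_pos n with h0 | h0
    · subst h0
      have := hpos 1 one_pos (hz.trans (by norm_num))
      simpa using this
    · rw [zero_pow h0.ne', mul_zero]
      by_contra hc
      push Not at hc
      set s := ‖∑ E ∈ 𝓔, ∑ x, Φ E x * ∏ j ∈ E, z j (x j)‖ with hs
      have hz0 : ∑ j, ∑ a, w j a * ‖z j a‖ ^ 2 ≤ 0 := by simpa using hz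
      set t : ℝ := min 1 (s / (2 * (J + 1))) with ht
      have htp : 0 < t := lt_min one_pos (by positivity)
      have h1 := hpos t htp (hz0.trans (by positivity))
      have h2 : t ^ n ≤ t := by
        calc t ^ n ≤ t ^ 1 := pow_le_pow_of_le_one htp.le (min_le_left _ _) h0
          _ = t := pow_one t
      have h3 : J * t ^ n ≤ J * (s / (2 * (J + 1))) :=
        mul_le_mul_of_nonneg_left (h2.trans (min_le_right _ _)) hJ0
      have h4 : J * (s / (2 * (J + 1))) ≤ s / 2 := by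
        have h5 : J * (s / (2 * (J + 1))) = (J / (J + 1)) * (s / 2) := by
          field_simp
        have h6 : J / (J + 1) ≤ 1 := by
          rw [div_le_one (by positivity)]; linarith
        rw [h5]
        have : 0 ≤ s / 2 := by linarith
        nlinarith
      linarith

/-- **(T2), final form.** `T E = 0` unless `E ⊆ I` and `E.card = e`; (PH) bounds the pinned `l²`
norms, (INJ) the pinned injective norms, `cube` is the theorem on the cube. -/
theorem mom_le {w : ∀ i, V i → ℝ} {T : Finset ι → (∀ i, V i) → ℝ} (hw : ∀ i a, 0 ≤ w i a)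
    (hs : ∀ i, ∑ a, w i a = 1)
    (hloc : ∀ E i, i ∉ E → ∀ x a, T E (Function.update x i a) = T E x)
    (hcen : ∀ E i, i ∈ E → ∀ x, ∑ a, w i a * T E (Function.update x i a) = 0)
    {Q : ℕ} (hQ : Even Q) (h4 : 4 ≤ Q) {e : ℕ} {I : Finset ι}
    (hT : ∀ E, ¬ (E ⊆ I ∧ E.card = e) → ∀ x, T E x = 0)
    (Z X2 J : ℕ → ℝ) (hJ0 : ∀ a, 0 ≤ J a)
    (PH : ∀ S ⊆ I, S.card ≤ e → ∀ u : ∀ i, V i,
      ∑ E : Finset ι with (Disjoint E S ∧ S ∪ E ⊆ I ∧ E.card = e - S.card),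
        ∑ x, pw w x * T (S ∪ E) (E.piecewise x u) ^ 2 ≤ X2 S.card ^ 2)
    (INJ : ∀ S ⊆ I, S.card ≤ e → ∀ u : ∀ i, V i, ∀ z : ∀ j, V j → ℂ,
      ∑ j, ∑ a, w j a * ‖z j a‖ ^ 2 ≤ 1 →
      ‖∑ E : Finset ι with (Disjoint E S ∧ S ∪ E ⊆ I ∧ E.card = e - S.card),
        ∑ x, (((pw w x : ℝ) : ℂ) * ((T (S ∪ E) (E.piecewise x u) : ℝ) : ℂ))
          * ∏ j ∈ E, z j (x j)‖ ≤ J S.card)
    (cube : ∀ a ≤ e, ∀ c : Finset (Fin (NN V)) → ℝ, (∀ F, F.card ≠ e - a → c F = 0) →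
      ∑ F, c F ^ 2 ≤ (3 ^ (e - a) * X2 a) ^ 2 →
      (∀ (y : Fin (NN V) → ℂ) (r : ℝ), 0 ≤ r → ∑ i, ‖y i‖ ^ 2 ≤ r ^ 2 →
        ‖∑ F, (c F : ℂ) * ∏ i ∈ F, y i‖ ≤ (3 ^ (e - a) * J a) * r ^ (e - a)) →
      ∑ s, poly c s ^ Q ≤ 2 ^ NN V * Z a ^ Q) :
    ∑ x, pw w x * (∑ E, T E x) ^ Q
      ≤ ∑ a ∈ range (e + 1), (I.card.choose a : ℝ) * (3 * (Q : ℝ) ^ Q) ^ a * Z a ^ Q := by
  have hmain := replace_all hw hs hloc hcen hQ h4
  -- supports
  have hvan : ∀ S : Finset ι, ¬ (S ⊆ I ∧ S.card ≤ e) → ∀ (u : ∀ i, V i) (eps : ∀ i, V i → Bool),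
      Zf w T S u eps = 0 := by
    intro S hS u eps
    unfold Zf
    refine sum_eq_zero fun y hy => ?_
    rw [hT, mul_zero]
    rintro ⟨h1, h2⟩
    exact hS ⟨subset_union_left.trans h1, h2 ▸ card_le_card subset_union_left⟩
  have hdeg : ∀ S : Finset ι, S.card ≤ e → ∀ (u : ∀ i, V i) (F : Finset (Fin (NN V))),
      F.card ≠ e - S.card → cc w T S u F = 0 := by
    intro S hS u F hF
    unfold cc
    refine sum_eq_zero fun y hy => ?_
    split_ifs with h
    · unfold c0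
      rw [hT, mul_zero]
      rintro ⟨_, h2⟩
      apply hF
      rw [mem_filter] at hy
      have hdis : Disjoint S (sup y) := by
        rw [Finset.disjoint_left]
        intro i hi hi2
        rw [mem_sup, hy.2 i hi] at hi2
        simp at hi2
      rw [card_union_of_disjoint hdis] at h2
      rw [← h, card_map, card_gr]
      omega
    · rfl
  -- restriction of the sums over `E`
  have hres : ∀ S : Finset ι, S.card ≤ e → ∀ {M : Type} [AddCommMonoid M] (f : Finset ι → M),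
      (∀ E, Disjoint E S → ¬ (S ∪ E ⊆ I ∧ E.card = e - S.card) → f E = 0) →
      ∑ E : Finset ι with Disjoint E S, f E
        = ∑ E : Finset ι with (Disjoint E S ∧ S ∪ E ⊆ I ∧ E.card = e - S.card), f E := by
    intro S _ M _ f hf
    symm
    refine Finset.sum_subset ?_ ?_
    · intro E hE
      rw [mem_filter] at hE ⊢
      exact ⟨hE.1, hE.2.1⟩
    · intro E hE hE2
      rw [mem_filter] at hE hE2
      refine hf E hE.2 fun h => hE2 ⟨mem_univ _, hE.2, h.1, h.2⟩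
  have hzero : ∀ S : Finset ι, S.card ≤ e → ∀ E, Disjoint E S →
      ¬ (S ∪ E ⊆ I ∧ E.card = e - S.card) → ∀ x, T (S ∪ E) x = 0 := by
    intro S hS E hE h x
    refine hT _ ?_ x
    rintro ⟨h1, h2⟩
    rw [card_union_of_disjoint hE.symm] at h2
    exact h ⟨h1, by omega⟩
  -- the bound for one pin set
  have hone : ∀ S : Finset ι, S ⊆ I → S.card ≤ e → ∀ u : ∀ i, V i,
      ∑ eps, pw (uw V) eps * (Zf w T S u eps) ^ Q ≤ Z S.card ^ Q := by
    intro S hSI hSe u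
    have h1 : ∑ eps, pw (uw V) eps * (Zf w T S u eps) ^ Q
        = (1 / 2 : ℝ) ^ NN V * ∑ s, poly (cc w T S u) s ^ Q := by
      rw [← avg_eq (fun s => poly (cc w T S u) s ^ Q)]
      refine sum_congr rfl fun eps _ => ?_
      rw [Zf_eq_poly]
    have h2 := cube S.card hSe (cc w T S u) (hdeg S hSe u) ?_ ?_
    · rw [h1]
      have h3 : (0 : ℝ) ≤ (1 / 2 : ℝ) ^ NN V := by positivity
      have h5 := mul_le_mul_of_nonneg_left h2 h3
      have h6 : (1 / 2 : ℝ) ^ NN V * (2 ^ NN V * Z S.card ^ Q) = Z S.card ^ Q := by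
        rw [← mul_assoc, ← mul_pow]; norm_num
      rwa [h6] at h5
    · rw [sum_cc_sq hw hs T S u]
      rw [hres S hSe (fun E => 9 ^ E.card * ∑ x, pw w x * T (S ∪ E) (E.piecewise x u) ^ 2)
        (fun E hE h => by
          have := hzero S hSe E hE h
          simp [this])]
      have h7 : ∑ E : Finset ι with (Disjoint E S ∧ S ∪ E ⊆ I ∧ E.card = e - S.card),
            9 ^ E.card * ∑ x, pw w x * T (S ∪ E) (E.piecewise x u) ^ 2
          = 9 ^ (e - S.card) * ∑ E : Finset ι with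
              (Disjoint E S ∧ S ∪ E ⊆ I ∧ E.card = e - S.card),
            ∑ x, pw w x * T (S ∪ E) (E.piecewise x u) ^ 2 := by
        rw [mul_sum]
        refine sum_congr rfl fun E hE => ?_
        rw [(mem_filter.mp hE).2.2.2]
      rw [h7, mul_pow, ← pow_mul, mul_comm (e - S.card) 2, pow_mul]
      norm_num
      exact PH S hSI hSe u
    · intro y r hr hy
      rw [sum_cc_complex hw hs T S u y]
      rw [hres S hSe _ (fun E hE h => by
          have := hzero S hSe E hE h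
          simp [this])]
      -- pull out the power of three
      have h7 : ∑ E : Finset ι with (Disjoint E S ∧ S ∪ E ⊆ I ∧ E.card = e - S.card),
            (3 : ℂ) ^ E.card * ∑ x, ((pw w x : ℝ) : ℂ) * ((T (S ∪ E) (E.piecewise x u) : ℂ)
              * ∏ j ∈ E, (y (eqv V ⟨j, x j⟩) / (Real.sqrt (w j (x j)) : ℂ)))
          = (3 : ℂ) ^ (e - S.card) * ∑ E : Finset ι with
              (Disjoint E S ∧ S ∪ E ⊆ I ∧ E.card = e - S.card),
            ∑ x, (((pw w x : ℝ) : ℂ) * ((T (S ∪ E) (E.piecewise x u) : ℝ) : ℂ))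
              * ∏ j ∈ E, (fun j a => (y (eqv V ⟨j, a⟩) / (Real.sqrt (w j a) : ℂ))) j (x j) := by
        rw [mul_sum]
        refine sum_congr rfl fun E hE => ?_
        rw [(mem_filter.mp hE).2.2.2]
        congr 1
        refine sum_congr rfl fun x _ => ?_
        ring
      rw [h7, norm_mul, norm_pow]
      have h8 : ‖(3 : ℂ)‖ = 3 := by simp
      rw [h8, mul_assoc]
      refine mul_le_mul_of_nonneg_left ?_ (by positivity)
      refine hom_bound (w := w) (e - S.card) (J S.card) (hJ0 _)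
        (fun E x => ((pw w x : ℝ) : ℂ) * ((T (S ∪ E) (E.piecewise x u) : ℝ) : ℂ))
        _ (fun E hE => (mem_filter.mp hE).2.2.2) (fun z hz => INJ S hSI hSe u z hz)
        (fun j a => (y (eqv V ⟨j, a⟩) / (Real.sqrt (w j a) : ℂ))) r hr ?_
      refine le_trans ?_ hy
      have h9 : ∑ i, ‖y i‖ ^ 2 = ∑ j, ∑ a, ‖y (eqv V ⟨j, a⟩)‖ ^ 2 := by
        rw [← Equiv.sum_comp (eqv V), Fintype.sum_sigma]
      rw [h9]
      refine sum_le_sum fun j _ => sum_le_sum fun a _ => ?_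
      by_cases h0 : w j a = 0
      · rw [h0, zero_mul]; positivity
      · have hpos : 0 < w j a := lt_of_le_of_ne (hw j a) (Ne.symm h0)
        rw [norm_div, Complex.norm_real, Real.norm_eq_abs, abs_of_nonneg (Real.sqrt_nonneg _),
          div_pow, Real.sq_sqrt (hw j a)]
        apply le_of_eq
        field_simp
  -- summation over the pin sets
  have hpw : ∑ x, pw w x = 1 := by
    have := pwK_sum hs
    exact this
  have hEE : ∀ S : Finset ι, S ⊆ I → S.card ≤ e →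
      EE w (fun x eps => (Zf w T S x eps) ^ Q) ≤ Z S.card ^ Q := by
    intro S h1 h2
    unfold EE
    calc ∑ x, pw w x * ∑ eps, pw (uw V) eps * (Zf w T S x eps) ^ Q
        ≤ ∑ x, pw w x * Z S.card ^ Q :=
          sum_le_sum fun x _ => mul_le_mul_of_nonneg_left (hone S h1 h2 x) (pw_nonneg hw x)
      _ = Z S.card ^ Q := by rw [← sum_mul, hpw, one_mul]
  refine hmain.trans ?_
  have h5 : ∑ S : Finset ι, (3 * (Q : ℝ) ^ Q) ^ S.card * EE w (fun x eps => (Zf w T S x eps) ^ Q)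
      = ∑ S : Finset ι with (S ⊆ I ∧ S.card ≤ e), (3 * (Q : ℝ) ^ Q) ^ S.card
          * EE w (fun x eps => (Zf w T S x eps) ^ Q) := by
    symm
    refine Finset.sum_subset (subset_univ _) ?_
    intro S _ hS
    rw [mem_filter] at hS
    have h6 : ¬ (S ⊆ I ∧ S.card ≤ e) := fun h => hS ⟨mem_univ _, h⟩
    have h7 : EE w (fun x eps => (Zf w T S x eps) ^ Q) = 0 := by
      unfold EE
      refine sum_eq_zero fun x _ => ?_
      rw [sum_eq_zero, mul_zero]
      intro eps _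
      show pw (uw V) eps * (Zf w T S x eps) ^ Q = 0
      rw [hvan S h6, zero_pow (by omega), mul_zero]
    rw [h7, mul_zero]
  rw [h5]
  have h6 : ∑ S : Finset ι with (S ⊆ I ∧ S.card ≤ e), (3 * (Q : ℝ) ^ Q) ^ S.card
          * EE w (fun x eps => (Zf w T S x eps) ^ Q)
      ≤ ∑ S : Finset ι with (S ⊆ I ∧ S.card ≤ e), (3 * (Q : ℝ) ^ Q) ^ S.card * Z S.card ^ Q := by
    refine sum_le_sum fun S hS => ?_
    rw [mem_filter] at hS
    exact mul_le_mul_of_nonneg_left (hEE S hS.2.1 hS.2.2) (by positivity)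
  refine h6.trans (le_of_eq ?_)
  have h7 : ∑ S : Finset ι with (S ⊆ I ∧ S.card ≤ e), (3 * (Q : ℝ) ^ Q) ^ S.card * Z S.card ^ Q
      = ∑ a ∈ range (e + 1), ∑ S ∈ (univ : Finset (Finset ι)).filter
          (fun S => (S ⊆ I ∧ S.card ≤ e) ∧ S.card = a), (3 * (Q : ℝ) ^ Q) ^ S.card * Z S.card ^ Q := by
    have h8 := Finset.sum_fiberwise_of_maps_to (s := (univ : Finset (Finset ι)).filter
        (fun S => S ⊆ I ∧ S.card ≤ e)) (t := range (e + 1)) (g := fun S => S.card)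
        (fun S hS => by
          rw [mem_filter] at hS
          exact mem_range.mpr (Nat.lt_succ_of_le hS.2.2))
        (fun S => (3 * (Q : ℝ) ^ Q) ^ S.card * Z S.card ^ Q)
    rw [← h8]
    refine sum_congr rfl fun a _ => ?_
    rw [filter_filter]
  rw [h7]
  refine sum_congr rfl fun a ha => ?_
  have h8 : (univ : Finset (Finset ι)).filter (fun S => (S ⊆ I ∧ S.card ≤ e) ∧ S.card = a)
      = I.powersetCard a := by
    ext S
    simp only [mem_filter, mem_univ, true_and, mem_powersetCard]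
    have := mem_range.mp ha
    constructor
    · rintro ⟨⟨h1, _⟩, h3⟩; exact ⟨h1, h3⟩
    · rintro ⟨h1, h3⟩; exact ⟨⟨h1, by omega⟩, h3⟩
  rw [h8]
  have h9 : ∀ S ∈ I.powersetCard a, (3 * (Q : ℝ) ^ Q) ^ S.card * Z S.card ^ Q
      = (3 * (Q : ℝ) ^ Q) ^ a * Z a ^ Q := by
    intro S hS
    rw [(mem_powersetCard.mp hS).2]
  rw [sum_congr rfl h9, sum_const, card_powersetCard, nsmul_eq_mul]
  ring

end Vale.Agent.P042.H322
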