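import Mathlib

/-! Replacement of one finite random variable by Rademacher signs (one coordinate). -/

namespace Vale.Agent.P042.H322

open Finset

/-- the sign of a Boolean -/
def sg (b : Bool) : ℝ := if b then 1 else -1

lemma sg_not (b : Bool) : sg (!b) = - sg b := by cases b <;> simp [sg]

lemma sg_sq (b : Bool) : sg b * sg b = 1 := by cases b <;> simp [sg]

lemma abs_sg (b : Bool) : |sg b| = 1 := by cases b <;> simp [sg]

/-- symmetric powers: lower bound by the first two even terms -/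
lemma sym_pow (A t : ℝ) (k : ℕ) :
    2 * A ^ (2 * k + 2) + 2 * ((k + 1) * (2 * k + 1)) * A ^ (2 * k) * t ^ 2
        ≤ (A + t) ^ (2 * k + 2) + (A - t) ^ (2 * k + 2) ∧
      2 * (2 * k + 2) * A ^ (2 * k + 2) * t ^ 2
        ≤ A * t * ((A + t) ^ (2 * k + 2) - (A - t) ^ (2 * k + 2)) := by
  induction k with
  | zero =>
    constructor
    · apply le_of_eq
      push_cast
      ring
    · apply le_of_eq
      push_cast
      ring
  | succ k ih =>
    obtain ⟨h1, h2⟩ := ih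
    have hA : 0 ≤ A ^ (2 * k) := by rw [pow_mul]; positivity
    have e1 : (A + t) ^ (2 * (k + 1) + 2) = (A + t) ^ (2 * k + 2) * (A ^ 2 + t ^ 2 + 2 * (A * t)) := by
      ring
    have e2 : (A - t) ^ (2 * (k + 1) + 2) = (A - t) ^ (2 * k + 2) * (A ^ 2 + t ^ 2 - 2 * (A * t)) := by
      ring
    set a := (A + t) ^ (2 * k + 2)
    set b := (A - t) ^ (2 * k + 2)
    have f1 : A ^ (2 * k + 2) = A ^ (2 * k) * A ^ 2 := by ring
    have f2 : A ^ (2 * (k + 1) + 2) = A ^ (2 * k) * A ^ 4 := by ring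
    have f3 : A ^ (2 * (k + 1)) = A ^ (2 * k) * A ^ 2 := by ring
    rw [f1] at h1 h2
    rw [e1, e2, f2, f3]
    set p := A ^ (2 * k)
    have hk : (0 : ℝ) ≤ k := Nat.cast_nonneg k
    have g1 := mul_le_mul_of_nonneg_right h1 (add_nonneg (sq_nonneg A) (sq_nonneg t))
    have g2 := mul_le_mul_of_nonneg_right h2 (add_nonneg (sq_nonneg A) (sq_nonneg t))
    have g3 := mul_le_mul_of_nonneg_right h1 (mul_nonneg (sq_nonneg A) (sq_nonneg t))
    have n1 : 0 ≤ (k : ℝ) * (2 * k + 1) * p * (t ^ 2 * t ^ 2) := by positivity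
    have n2 : 0 ≤ p * (t ^ 2 * t ^ 2) := by positivity
    have n3 : 0 ≤ (k : ℝ) * p * (t ^ 2 * t ^ 2) := by positivity
    have n4 : 0 ≤ (k : ℝ) * p * A ^ 2 * (t ^ 2 * t ^ 2) := by positivity
    have n5 : 0 ≤ p * A ^ 2 * (t ^ 2 * t ^ 2) := by positivity
    have n6 : 0 ≤ (k : ℝ) * k * p * A ^ 2 * (t ^ 2 * t ^ 2) := by positivity
    constructor
    · push_cast
      nlinarith [g1, h2, n1, n2, n3, n4, n5, n6]
    · push_cast
      nlinarith [g2, g3, n1, n2, n3, n4, n5, n6]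

/-- `C(Q,2)`-form -/
lemma sym_pow' (A t : ℝ) {Q : ℕ} (hQ : Even Q) (h2 : 2 ≤ Q) :
    2 * A ^ Q + (Q : ℝ) * (Q - 1) * A ^ (Q - 2) * t ^ 2 ≤ (A + t) ^ Q + (A - t) ^ Q := by
  obtain ⟨m, hm⟩ := hQ
  obtain ⟨k, rfl⟩ : ∃ k, m = k + 1 := ⟨m - 1, by omega⟩
  have hQ' : Q = 2 * k + 2 := by omega
  subst hQ'
  have := (sym_pow A t k).1
  have e : 2 * k + 2 - 2 = 2 * k := by omega
  rw [e]
  push_cast
  linarith

lemma one_add_inv_pow (Q : ℕ) (h : 1 ≤ Q) : (1 + 1 / (Q : ℝ)) ^ Q ≤ 3 := by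
  have hQ : (0 : ℝ) < Q := by exact_mod_cast h
  have h1 : 1 + 1 / (Q : ℝ) ≤ Real.exp (1 / Q) := by
    have := Real.add_one_le_exp (1 / (Q : ℝ))
    linarith
  calc (1 + 1 / (Q : ℝ)) ^ Q ≤ (Real.exp (1 / Q)) ^ Q := by
        gcongr
    _ = Real.exp 1 := by
        rw [← Real.exp_nat_mul]
        congr 1
        field_simp
    _ ≤ 3 := by
        have := Real.exp_one_lt_d9
        linarith

/-- pointwise bound of one binomial term of order `m ≥ 2` -/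
lemma term_le (A f : ℝ) {Q m : ℕ} (hQ : Even Q) (h2 : 2 ≤ Q) (hm : 2 ≤ m) (hmQ : m ≤ Q) :
    |A| ^ (Q - m) * |f| ^ m
      ≤ (Q : ℝ) ^ 2 * (1 / (Q : ℝ)) ^ m * (A ^ (Q - 2) * f ^ 2)
        + (Q : ℝ) ^ Q * (1 / (Q : ℝ)) ^ m * f ^ Q := by
  have hQ0 : (0 : ℝ) < Q := by
    have : 0 < Q := by omega
    exact_mod_cast this
  have hev : Even (Q - 2) := by
    obtain ⟨k, hk⟩ := hQ
    exact ⟨k - 1, by omega⟩
  have hA2 : 0 ≤ A ^ (Q - 2) := hev.pow_nonneg A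
  have hfQ : 0 ≤ f ^ Q := hQ.pow_nonneg f
  rcases le_or_gt ((Q : ℝ) * |f|) |A| with hc | hc
  · -- |f| ≤ |A|/Q
    have h1 : |f| ^ (m - 2) ≤ (|A| / Q) ^ (m - 2) := by
      apply pow_le_pow_left₀ (abs_nonneg _)
      rw [le_div_iff₀ hQ0]
      linarith
    have h3 : |A| ^ (Q - m) * |f| ^ m
        ≤ |A| ^ (Q - m) * (|f| ^ 2 * (|A| / Q) ^ (m - 2)) := by
      have : |f| ^ m = |f| ^ 2 * |f| ^ (m - 2) := by
        rw [← pow_add]; congr 1; omega
      rw [this]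
      have : 0 ≤ |A| ^ (Q - m) := by positivity
      gcongr
    have h4 : |A| ^ (Q - m) * (|f| ^ 2 * (|A| / Q) ^ (m - 2))
        = (Q : ℝ) ^ 2 * (1 / (Q : ℝ)) ^ m * (A ^ (Q - 2) * f ^ 2) := by
      have e1 : A ^ (Q - 2) = |A| ^ (Q - m) * |A| ^ (m - 2) := by
        rw [← pow_add, show Q - m + (m - 2) = Q - 2 by omega, hev.pow_abs]
      have e2 : (1 / (Q : ℝ)) ^ m = (1 / (Q : ℝ)) ^ 2 * (1 / (Q : ℝ)) ^ (m - 2) := by
        rw [← pow_add]; congr 1; omega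
      rw [e1, e2, sq_abs, div_pow, one_div_pow, one_div_pow]
      field_simp
    have h5 : 0 ≤ (Q : ℝ) ^ Q * (1 / (Q : ℝ)) ^ m * f ^ Q := by positivity
    linarith
  · -- |A| < Q |f|
    have h1 : |A| ^ (Q - m) ≤ ((Q : ℝ) * |f|) ^ (Q - m) :=
      pow_le_pow_left₀ (abs_nonneg _) hc.le _
    have h3 : |A| ^ (Q - m) * |f| ^ m ≤ ((Q : ℝ) * |f|) ^ (Q - m) * |f| ^ m := by
      gcongr
    have h4 : ((Q : ℝ) * |f|) ^ (Q - m) * |f| ^ m = (Q : ℝ) ^ Q * (1 / (Q : ℝ)) ^ m * f ^ Q := by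
      have e1 : f ^ Q = |f| ^ (Q - m) * |f| ^ m := by
        rw [← pow_add, show Q - m + m = Q by omega, hQ.pow_abs]
      have e2 : (Q : ℝ) ^ Q = (Q : ℝ) ^ (Q - m) * (Q : ℝ) ^ m := by
        rw [← pow_add]; congr 1; omega
      rw [e1, e2, mul_pow, one_div_pow]
      field_simp
    have h5 : 0 ≤ (Q : ℝ) ^ 2 * (1 / (Q : ℝ)) ^ m * (A ^ (Q - 2) * f ^ 2) := by positivity
    linarith

/-- pointwise upper bound -/
lemma add_pow_le (A f : ℝ) {Q : ℕ} (hQ : Even Q) (h2 : 2 ≤ Q) :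
    (A + f) ^ Q ≤ A ^ Q + Q * A ^ (Q - 1) * f + 3 * (Q : ℝ) ^ 2 * (A ^ (Q - 2) * f ^ 2)
      + 3 * (Q : ℝ) ^ Q * f ^ Q := by
  have hQ0 : (0 : ℝ) < Q := by
    have : 0 < Q := by omega
    exact_mod_cast this
  have hev : Even (Q - 2) := by
    obtain ⟨k, hk⟩ := hQ
    exact ⟨k - 1, by omega⟩
  have hA2 : 0 ≤ A ^ (Q - 2) := hev.pow_nonneg A
  have hfQ : 0 ≤ f ^ Q := hQ.pow_nonneg f
  obtain ⟨r, rfl⟩ : ∃ r, Q = r + 2 := ⟨Q - 2, by omega⟩
  -- binomial expansion in powers of f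
  have hexp : (A + f) ^ (r + 2) = ∑ m ∈ range (r + 2 + 1), f ^ m * A ^ (r + 2 - m) * ((r + 2).choose m : ℝ) := by
    rw [add_comm A f, add_pow]
  have hsplit : ∑ m ∈ range (r + 2 + 1), f ^ m * A ^ (r + 2 - m) * ((r + 2).choose m : ℝ)
      = (∑ m ∈ range (r + 1), f ^ (m + 2) * A ^ (r + 2 - (m + 2)) * ((r + 2).choose (m + 2) : ℝ))
        + ((r + 2 : ℕ) : ℝ) * A ^ (r + 2 - 1) * f + A ^ (r + 2) := by
    rw [Finset.sum_range_succ', Finset.sum_range_succ']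
    simp
    ring
  have hterm : ∀ m ∈ range (r + 1), f ^ (m + 2) * A ^ (r + 2 - (m + 2)) * ((r + 2).choose (m + 2) : ℝ)
      ≤ (((r + 2 : ℕ) : ℝ) ^ 2 * (A ^ (r + 2 - 2) * f ^ 2) + ((r + 2 : ℕ) : ℝ) ^ (r + 2) * f ^ (r + 2))
        * ((1 / ((r + 2 : ℕ) : ℝ)) ^ (m + 2) * 1 ^ (r + 2 - (m + 2)) * ((r + 2).choose (m + 2) : ℝ)) := by
    intro m hm
    have hm' : m + 2 ≤ r + 2 := by
      have := mem_range.mp hm; omega
    have h := term_le A f hQ h2 (by omega : 2 ≤ m + 2) hm'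
    have habs : f ^ (m + 2) * A ^ (r + 2 - (m + 2)) ≤ |A| ^ (r + 2 - (m + 2)) * |f| ^ (m + 2) := by
      calc f ^ (m + 2) * A ^ (r + 2 - (m + 2)) ≤ |f ^ (m + 2) * A ^ (r + 2 - (m + 2))| := le_abs_self _
        _ = |A| ^ (r + 2 - (m + 2)) * |f| ^ (m + 2) := by
            rw [abs_mul, abs_pow, abs_pow]; ring
    have hch : (0 : ℝ) ≤ ((r + 2).choose (m + 2) : ℝ) := Nat.cast_nonneg _
    have := mul_le_mul_of_nonneg_right (habs.trans h) hch
    refine this.trans (le_of_eq ?_)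
    rw [one_pow]
    ring
  have hsum := Finset.sum_le_sum hterm
  rw [← Finset.mul_sum] at hsum
  have hbin : ∑ m ∈ range (r + 1), ((1 / ((r + 2 : ℕ) : ℝ)) ^ (m + 2) * 1 ^ (r + 2 - (m + 2)) * ((r + 2).choose (m + 2) : ℝ)) ≤ 3 := by
    have h3 := one_add_inv_pow (r + 2) (by omega)
    have hfull : (1 + 1 / ((r + 2 : ℕ) : ℝ)) ^ (r + 2)
        = ∑ m ∈ range (r + 2 + 1), (1 / ((r + 2 : ℕ) : ℝ)) ^ m * 1 ^ (r + 2 - m) * ((r + 2).choose m : ℝ) := by
      rw [add_comm, add_pow]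
    rw [hfull, Finset.sum_range_succ', Finset.sum_range_succ'] at h3
    have p1 : (0 : ℝ) ≤ (1 / ((r + 2 : ℕ) : ℝ)) ^ (0 + 1) * 1 ^ (r + 2 - (0 + 1)) * ((r + 2).choose (0 + 1) : ℝ) := by
      positivity
    have p2 : (0 : ℝ) ≤ (1 / ((r + 2 : ℕ) : ℝ)) ^ 0 * 1 ^ (r + 2 - 0) * ((r + 2).choose 0 : ℝ) := by
      positivity
    have e : ∀ m, m + 1 + 1 = m + 2 := fun m => rfl
    linarith [h3, p1, p2]
  have hpos : 0 ≤ ((r + 2 : ℕ) : ℝ) ^ 2 * (A ^ (r + 2 - 2) * f ^ 2) + ((r + 2 : ℕ) : ℝ) ^ (r + 2) * f ^ (r + 2) := by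
    positivity
  have h6 := mul_le_mul_of_nonneg_left hbin hpos
  rw [hexp, hsplit]
  nlinarith [hsum, h6]

variable {α : Type*} [Fintype α] [DecidableEq α]

/-- second moment of a Rademacher sum -/
lemma rad_sq (c : α → ℝ) :
    (1 / 2 : ℝ) ^ Fintype.card α * ∑ e : α → Bool, (∑ a, c a * sg (e a)) ^ 2 = ∑ a, c a ^ 2 := by
  have h1 : ∀ e : α → Bool, (∑ a, c a * sg (e a)) ^ 2 = ∑ a, ∑ b, c a * c b * (sg (e a) * sg (e b)) := by
    intro e
    rw [sq, Finset.sum_mul_sum]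
    refine sum_congr rfl fun a _ => sum_congr rfl fun b _ => ?_
    ring
  simp only [h1]
  rw [sum_comm, mul_sum]
  refine sum_congr rfl fun a _ => ?_
  rw [sum_comm, mul_sum]
  have hcard : (∑ _e : α → Bool, (1 : ℝ)) = 2 ^ Fintype.card α := by
    simp
  rw [Finset.sum_eq_single a]
  · have : ∀ e : α → Bool, c a * c a * (sg (e a) * sg (e a)) = c a ^ 2 * 1 := by
      intro e; rw [sg_sq]; ring
    simp only [this]
    rw [← mul_sum, hcard]
    have h2 : (1 / 2 : ℝ) ^ Fintype.card α * 2 ^ Fintype.card α = 1 := by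
      rw [← mul_pow]; norm_num
    calc (1 / 2 : ℝ) ^ Fintype.card α * (c a ^ 2 * 2 ^ Fintype.card α)
        = c a ^ 2 * ((1 / 2 : ℝ) ^ Fintype.card α * 2 ^ Fintype.card α) := by ring
      _ = c a ^ 2 := by rw [h2, mul_one]
  · intro b _ hb
    -- flip the sign at b
    have hz : ∑ e : α → Bool, c a * c b * (sg (e a) * sg (e b)) = 0 := by
      have hinv : ∑ e : α → Bool, c a * c b * (sg (e a) * sg (e b))
          = ∑ e : α → Bool, - (c a * c b * (sg (e a) * sg (e b))) := by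
        refine Fintype.sum_bijective (fun e : α → Bool => Function.update e b (!(e b))) ?_ _ _ ?_
        · refine Function.Involutive.bijective ?_
          intro e
          funext j
          by_cases hj : j = b
          · subst hj; simp
          · simp [hj]
        · intro e
          have hab : a ≠ b := fun h => hb h.symm
          simp only [Function.update_self, Function.update_of_ne hab, sg_not]
          ring
      rw [Finset.sum_neg_distrib] at hinv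
      linarith
    rw [hz, mul_zero]
  · intro h; exact absurd (mem_univ a) h

/-- **one coordinate replacement.** -/
theorem rep1 (w : α → ℝ) (hw : ∀ a, 0 ≤ w a) (hs : ∑ a, w a = 1) (f : α → ℝ)
    (hf : ∑ a, w a * f a = 0) (A : ℝ) {Q : ℕ} (hQ : Even Q) (h4 : 4 ≤ Q) :
    ∑ a, w a * (A + f a) ^ Q
      ≤ (1 / 2 : ℝ) ^ Fintype.card α
          * ∑ e : α → Bool, (A + ∑ a, 3 * Real.sqrt (w a) * sg (e a) * f a) ^ Q
        + 3 * (Q : ℝ) ^ Q * ∑ a, w a * f a ^ Q := by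
  have hQ0 : (0 : ℝ) < Q := by
    have : 0 < Q := by omega
    exact_mod_cast this
  have hev : Even (Q - 2) := by
    obtain ⟨k, hk⟩ := hQ
    exact ⟨k - 1, by omega⟩
  have hA2 : 0 ≤ A ^ (Q - 2) := hev.pow_nonneg A
  set F2 := ∑ a, w a * f a ^ 2 with hF2
  have hF2n : 0 ≤ F2 := sum_nonneg fun a _ => mul_nonneg (hw a) (sq_nonneg _)
  -- upper bound
  have hup : ∑ a, w a * (A + f a) ^ Q
      ≤ A ^ Q + 3 * (Q : ℝ) ^ 2 * A ^ (Q - 2) * F2 + 3 * (Q : ℝ) ^ Q * ∑ a, w a * f a ^ Q := by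
    have h1 : ∑ a, w a * (A + f a) ^ Q
        ≤ ∑ a, w a * (A ^ Q + Q * A ^ (Q - 1) * f a + 3 * (Q : ℝ) ^ 2 * (A ^ (Q - 2) * f a ^ 2)
          + 3 * (Q : ℝ) ^ Q * f a ^ Q) :=
      sum_le_sum fun a _ => mul_le_mul_of_nonneg_left (add_pow_le A (f a) hQ (by omega)) (hw a)
    refine h1.trans (le_of_eq ?_)
    have h2 : ∀ a, w a * (A ^ Q + Q * A ^ (Q - 1) * f a + 3 * (Q : ℝ) ^ 2 * (A ^ (Q - 2) * f a ^ 2)
          + 3 * (Q : ℝ) ^ Q * f a ^ Q)
        = A ^ Q * w a + (Q * A ^ (Q - 1)) * (w a * f a)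
          + (3 * (Q : ℝ) ^ 2 * A ^ (Q - 2)) * (w a * f a ^ 2)
          + (3 * (Q : ℝ) ^ Q) * (w a * f a ^ Q) := fun a => by ring
    simp only [h2, sum_add_distrib, ← mul_sum, hs, hf]
    ring
  -- lower bound of the Rademacher side
  have hlow : A ^ Q + 3 * (Q : ℝ) ^ 2 * A ^ (Q - 2) * F2
      ≤ (1 / 2 : ℝ) ^ Fintype.card α
          * ∑ e : α → Bool, (A + ∑ a, 3 * Real.sqrt (w a) * sg (e a) * f a) ^ Q := by
    set G : (α → Bool) → ℝ := fun e => ∑ a, 3 * Real.sqrt (w a) * sg (e a) * f a with hG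
    have hGn : ∀ e : α → Bool, G (fun a => !(e a)) = - G e := by
      intro e
      simp only [hG, sg_not]
      rw [← Finset.sum_neg_distrib]
      exact sum_congr rfl fun a _ => by ring
    have hsym : ∑ e : α → Bool, (A + G e) ^ Q = ∑ e : α → Bool, (A - G e) ^ Q := by
      refine Fintype.sum_bijective (fun e : α → Bool => fun a => !(e a)) ?_ _ _ ?_
      · refine Function.Involutive.bijective ?_
        intro e; funext a; simp
      · intro e
        rw [hGn]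
        ring
    have hcard : (∑ _e : α → Bool, (1 : ℝ)) = 2 ^ Fintype.card α := by simp
    have h2c : (1 / 2 : ℝ) ^ Fintype.card α * 2 ^ Fintype.card α = 1 := by
      rw [← mul_pow]; norm_num
    have hpt : ∀ e : α → Bool, 2 * A ^ Q + (Q : ℝ) * (Q - 1) * A ^ (Q - 2) * (G e) ^ 2
        ≤ (A + G e) ^ Q + (A - G e) ^ Q := fun e => sym_pow' A (G e) hQ (by omega)
    have hsum := Finset.sum_le_sum fun e (_ : e ∈ (univ : Finset (α → Bool))) => hpt e
    rw [sum_add_distrib, sum_add_distrib, ← hsym] at hsum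
    have hpull : ∑ e : α → Bool, (Q : ℝ) * (Q - 1) * A ^ (Q - 2) * (G e) ^ 2
        = (Q : ℝ) * (Q - 1) * A ^ (Q - 2) * ∑ e : α → Bool, (G e) ^ 2 := by
      rw [mul_sum]
    rw [hpull] at hsum
    have hG2 : (1 / 2 : ℝ) ^ Fintype.card α * ∑ e : α → Bool, (G e) ^ 2 = 9 * F2 := by
      have := rad_sq (fun a => 3 * Real.sqrt (w a) * f a)
      have h3 : ∀ e : α → Bool, G e = ∑ a, (3 * Real.sqrt (w a) * f a) * sg (e a) := by
        intro e
        exact sum_congr rfl fun a _ => by ring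
      simp only [h3]
      rw [this, hF2, mul_sum]
      refine sum_congr rfl fun a _ => ?_
      have := Real.sq_sqrt (hw a)
      calc (3 * Real.sqrt (w a) * f a) ^ 2 = 9 * (Real.sqrt (w a)) ^ 2 * f a ^ 2 := by ring
        _ = 9 * (w a * f a ^ 2) := by rw [this]; ring
    have hconst : ∑ _e : α → Bool, 2 * A ^ Q = 2 * A ^ Q * 2 ^ Fintype.card α := by
      rw [← hcard, mul_sum]
      simp
    rw [hconst] at hsum
    have hpc : (0 : ℝ) ≤ (1 / 2 : ℝ) ^ Fintype.card α := by positivity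
    have h5 := mul_le_mul_of_nonneg_left hsum hpc
    have h6 : (1 / 2 : ℝ) ^ Fintype.card α * (2 * A ^ Q * 2 ^ Fintype.card α
        + (Q : ℝ) * (Q - 1) * A ^ (Q - 2) * ∑ e : α → Bool, (G e) ^ 2)
        = 2 * A ^ Q + (Q : ℝ) * (Q - 1) * A ^ (Q - 2) * (9 * F2) := by
      rw [← hG2]
      calc (1 / 2 : ℝ) ^ Fintype.card α * (2 * A ^ Q * 2 ^ Fintype.card α
            + (Q : ℝ) * (Q - 1) * A ^ (Q - 2) * ∑ e : α → Bool, (G e) ^ 2)
          = 2 * A ^ Q * ((1 / 2 : ℝ) ^ Fintype.card α * 2 ^ Fintype.card α)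
            + (Q : ℝ) * (Q - 1) * A ^ (Q - 2)
              * ((1 / 2 : ℝ) ^ Fintype.card α * ∑ e : α → Bool, (G e) ^ 2) := by ring
        _ = _ := by rw [h2c]; ring
    rw [h6] at h5
    have hQ4 : (4 : ℝ) ≤ Q := by exact_mod_cast h4
    have h7 : 3 * (Q : ℝ) ^ 2 * A ^ (Q - 2) * F2 ≤ (Q : ℝ) * (Q - 1) * A ^ (Q - 2) * (9 * F2) / 2 := by
      have h8 : 3 * (Q : ℝ) ^ 2 ≤ 9 * (Q * (Q - 1)) / 2 := by nlinarith
      have h9 : 0 ≤ A ^ (Q - 2) * F2 := mul_nonneg hA2 hF2n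
      have := mul_le_mul_of_nonneg_right h8 h9
      linarith
    linarith
  linarith

end Vale.Agent.P042.H322
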