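import Vale.Agent.P042.H322.Rep1

/-! Replacement of all coordinates of a finite product space by Rademacher signs. -/

namespace Vale.Agent.P042.H322

open Finset

set_option linter.unusedSectionVars false

variable {ι : Type*} [Fintype ι] [DecidableEq ι] {V : ι → Type*} [∀ i, Fintype (V i)]
  [∀ i, DecidableEq (V i)]

/-- product weight -/
noncomputable def pw {U : ι → Type*} (w : ∀ i, U i → ℝ) (x : ∀ i, U i) : ℝ := ∏ i, w i (x i)

lemma pw_nonneg {U : ι → Type*} {w : ∀ i, U i → ℝ} (hw : ∀ i a, 0 ≤ w i a) (x : ∀ i, U i) :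
    0 ≤ pw w x := prod_nonneg fun i _ => hw i _

lemma pw_avg {U : ι → Type*} [∀ i, Fintype (U i)] {w : ∀ i, U i → ℝ}
    (hs : ∀ i, ∑ a, w i a = 1) (i : ι) (H : (∀ i, U i) → ℝ) :
    ∑ x, pw w x * H x = ∑ x, pw w x * ∑ a, w i a * H (Function.update x i a) := by
  have hR : ∑ x, pw w x * ∑ a, w i a * H (Function.update x i a)
      = ∑ p : (∀ i, U i) × U i, pw w p.1 * (w i p.2 * H (Function.update p.1 i p.2)) := by
    rw [Fintype.sum_prod_type]
    refine sum_congr rfl fun x _ => ?_
    rw [mul_sum]
  have hL : ∑ x, pw w x * H x = ∑ p : (∀ i, U i) × U i, w i p.2 * (pw w p.1 * H p.1) := by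
    rw [Fintype.sum_prod_type]
    refine sum_congr rfl fun x _ => ?_
    have : ∑ y, w i y * (pw w x * H x) = pw w x * H x := by
      rw [← sum_mul, hs, one_mul]
    exact this.symm
  rw [hL, hR]
  let e : (∀ i, U i) × U i ≃ (∀ i, U i) × U i :=
    { toFun := fun p => (Function.update p.1 i p.2, p.1 i)
      invFun := fun p => (Function.update p.1 i p.2, p.1 i)
      left_inv := by
        intro p; ext j
        · by_cases hj : j = i
          · subst hj; simp
          · simp [hj]
        · simp
      right_inv := by
        intro p; ext j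
        · by_cases hj : j = i
          · subst hj; simp
          · simp [hj]
        · simp }
  refine (Fintype.sum_equiv e _ _ fun p => ?_).symm
  obtain ⟨x, a⟩ := p
  simp only [e, Equiv.coe_fn_mk]
  have hp : ∀ y : ∀ i, U i, pw w y = w i (y i) * ∏ j ∈ univ.erase i, w j (y j) := by
    intro y
    unfold pw
    rw [mul_prod_erase univ (fun j => w j (y j)) (mem_univ i)]
  have hq : ∏ j ∈ univ.erase i, w j (Function.update x i a j)
      = ∏ j ∈ univ.erase i, w j (x j) := by
    refine prod_congr rfl fun j hj => ?_
    have : j ≠ i := (mem_erase.mp hj).1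
    simp [this]
  rw [hp x, hp (Function.update x i a), hq]
  simp only [Function.update_self]
  ring

/-- overwrite `x` by the partial assignment `y` -/
def ov (y : ∀ i, Option (V i)) (x : ∀ i, V i) : ∀ i, V i := fun i => (y i).getD (x i)

/-- the domain of a partial assignment -/
def sup (y : ∀ i, Option (V i)) : Finset ι := univ.filter fun i => (y i).isSome = true

lemma mem_sup {y : ∀ i, Option (V i)} {i : ι} : i ∈ sup y ↔ (y i).isSome = true := by
  simp [sup]

lemma ov_update (y : ∀ i, Option (V i)) (x : ∀ i, V i) {i : ι} (hy : y i = none) (a : V i) :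
    ov y (Function.update x i a) = Function.update (ov y x) i a := by
  funext j
  by_cases hj : j = i
  · subst hj; simp [ov, hy]
  · simp [ov, hj]

lemma ov_some (y : ∀ i, Option (V i)) (x : ∀ i, V i) {i : ι} (a : V i) :
    ov (Function.update y i (some a)) x = Function.update (ov y x) i a := by
  funext j
  by_cases hj : j = i
  · subst hj; simp [ov]
  · simp [ov, hj]

lemma sup_some (y : ∀ i, Option (V i)) {i : ι} (a : V i) :
    sup (Function.update y i (some a)) = insert i (sup y) := by
  ext j
  rw [mem_sup, mem_insert, mem_sup]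
  by_cases hj : j = i
  · subst hj; simp
  · simp [hj]

/-- admissible partial assignments -/
def okk (S R : Finset ι) (y : ∀ i, Option (V i)) : Prop := ∀ i, (i ∈ S ∨ i ∉ R) → y i = none

instance (S R : Finset ι) (y : ∀ i, Option (V i)) : Decidable (okk S R y) := by
  unfold okk; infer_instance

/-- the coefficient of one letter -/
noncomputable def cf (w : ∀ i, V i → ℝ) (i : ι) (o : Option (V i)) (e : V i → Bool) : ℝ :=
  match o with
  | none => 1
  | some a => 3 * Real.sqrt (w i a) * sg (e a)

/-- partially replaced function -/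
noncomputable def ZZ (w : ∀ i, V i → ℝ) (g : Finset ι → (∀ i, V i) → ℝ) (S R : Finset ι)
    (x : ∀ i, V i) (eps : ∀ i, V i → Bool) : ℝ :=
  ∑ y : (∀ i, Option (V i)) with okk S R y, (∏ j, cf w j (y j) (eps j)) * g (S ∪ sup y) (ov y x)

/-- the components of `∑ T E` with trace `B` on `R` -/
noncomputable def PP (T : Finset ι → (∀ i, V i) → ℝ) (R B : Finset ι) (x : ∀ i, V i) : ℝ :=
  ∑ E : Finset ι with E ∩ R = B, T E x

lemma sum_okk (S R : Finset ι) {i : ι} (hiR : i ∉ R) (hiS : i ∉ S)
    (F : (∀ i, Option (V i)) → ℝ) :
    ∑ y : (∀ i, Option (V i)) with okk S (insert i R) y, F y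
      = ∑ y : (∀ i, Option (V i)) with okk S R y,
          (F y + ∑ a, F (Function.update y i (some a))) := by
  have h1 : ∑ y : (∀ i, Option (V i)) with okk S (insert i R) y, F y
      = ∑ p ∈ ((univ : Finset (∀ i, Option (V i))).filter (okk S R)) ×ˢ
          (univ : Finset (Option (V i))), F (Function.update p.1 i p.2) := by
    refine Finset.sum_bij' (fun y _ => (Function.update y i none, y i))
      (fun p _ => Function.update p.1 i p.2) ?_ ?_ ?_ ?_ ?_
    · intro y hy
      rw [mem_filter] at hy
      simp only [mem_product, mem_filter, mem_univ, true_and, and_true]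
      intro j hj
      by_cases hji : j = i
      · subst hji; simp
      · rw [Function.update_of_ne hji]
        refine hy.2 j ?_
        rcases hj with hj | hj
        · exact Or.inl hj
        · right
          rw [mem_insert]
          push Not
          exact ⟨hji, hj⟩
    · intro p hp
      simp only [mem_product, mem_filter, mem_univ, true_and, and_true] at hp
      rw [mem_filter]
      refine ⟨mem_univ _, ?_⟩
      intro j hj
      have hji : j ≠ i := by
        rintro rfl
        rcases hj with hj | hj
        · exact hiS hj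
        · exact hj (mem_insert_self _ _)
      rw [Function.update_of_ne hji]
      refine hp j ?_
      rcases hj with hj | hj
      · exact Or.inl hj
      · right
        intro hjR
        exact hj (mem_insert_of_mem hjR)
    · intro y hy
      simp
    · intro p hp
      simp only [mem_product, mem_filter, mem_univ, true_and, and_true] at hp
      have h0 : p.1 i = none := hp i (Or.inr hiR)
      have h1 : Function.update (Function.update p.1 i p.2) i none = p.1 := by
        rw [Function.update_idem, ← h0, Function.update_eq_self]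
      ext1
      · exact h1
      · simp
    · intro y hy
      simp
  rw [h1, Finset.sum_product]
  refine sum_congr rfl fun y hy => ?_
  rw [Fintype.sum_option]
  congr 1
  rw [mem_filter] at hy
  have h0 : y i = none := hy.2 i (Or.inr hiR)
  rw [← h0, Function.update_eq_self]

lemma prod_some (w : ∀ i, V i → ℝ) (y : ∀ i, Option (V i)) (eps : ∀ i, V i → Bool) {i : ι}
    (hy : y i = none) (a : V i) (e : V i → Bool) :
    ∏ j, cf w j (Function.update y i (some a) j) (Function.update eps i e j)
      = 3 * Real.sqrt (w i a) * sg (e a) * ∏ j, cf w j (y j) (eps j) := by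
  rw [← mul_prod_erase univ (fun j => cf w j (Function.update y i (some a) j)
      (Function.update eps i e j)) (mem_univ i),
    ← mul_prod_erase univ (fun j => cf w j (y j) (eps j)) (mem_univ i)]
  have h1 : ∏ j ∈ univ.erase i, cf w j (Function.update y i (some a) j)
      (Function.update eps i e j) = ∏ j ∈ univ.erase i, cf w j (y j) (eps j) := by
    refine prod_congr rfl fun j hj => ?_
    have : j ≠ i := (mem_erase.mp hj).1
    simp [this]
  rw [h1]
  simp [cf, hy]

lemma prod_eps (w : ∀ i, V i → ℝ) (y : ∀ i, Option (V i)) (eps : ∀ i, V i → Bool) {i : ι}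
    (hy : y i = none) (e : V i → Bool) :
    ∏ j, cf w j (y j) (Function.update eps i e j) = ∏ j, cf w j (y j) (eps j) := by
  refine prod_congr rfl fun j _ => ?_
  by_cases hj : j = i
  · subst hj; simp [cf, hy]
  · simp [hj]

section
variable {w : ∀ i, V i → ℝ} {T : Finset ι → (∀ i, V i) → ℝ}

/-- splitting the components by a new coordinate -/
lemma PP_split (R B : Finset ι) {i : ι} (hi : i ∉ R) (hB : i ∉ B) (x : ∀ i, V i) :
    PP T R B x = PP T (insert i R) B x + PP T (insert i R) (insert i B) x := by
  unfold PP
  rw [← Finset.sum_union]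
  · refine Finset.sum_congr ?_ fun _ _ => rfl
    ext E
    simp only [mem_filter, mem_univ, true_and, mem_union]
    constructor
    · intro h
      by_cases hE : i ∈ E
      · right
        rw [inter_insert_of_mem hE, h]
      · left
        rw [inter_insert_of_notMem hE, h]
    · rintro (h | h)
      · have hE : i ∉ E := by
          intro hE
          rw [inter_insert_of_mem hE] at h
          exact hB (h ▸ mem_insert_self _ _)
        rwa [inter_insert_of_notMem hE] at h
      · have hE : i ∈ E := by
          by_contra hE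
          rw [inter_insert_of_notMem hE] at h
          have : i ∈ E ∩ R := by rw [h]; exact mem_insert_self _ _
          exact hE (mem_inter.mp this).1
        rw [inter_insert_of_mem hE] at h
        have h1 : i ∉ E ∩ R := fun hc => hi (mem_inter.mp hc).2
        have := congrArg (fun s => s.erase i) h
        simpa [erase_insert h1, erase_insert hB] using this
  · rw [Finset.disjoint_left]
    intro E h1 h2
    rw [mem_filter] at h1 h2
    have := h1.2.symm.trans h2.2
    exact hB (this ▸ mem_insert_self _ _)

/-- components without `i` do not depend on the coordinate `i` -/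
lemma PP_indep (hloc : ∀ E i, i ∉ E → ∀ x a, T E (Function.update x i a) = T E x)
    (R B : Finset ι) {i : ι} (hi : i ∈ R) (hB : i ∉ B) (x : ∀ i, V i) (a : V i) :
    PP T R B (Function.update x i a) = PP T R B x := by
  unfold PP
  refine sum_congr rfl fun E hE => ?_
  rw [mem_filter] at hE
  refine hloc E i ?_ x a
  intro hc
  exact hB (hE.2 ▸ mem_inter.mpr ⟨hc, hi⟩)

/-- components with `i` are centred in the coordinate `i` -/
lemma PP_cen (hcen : ∀ E i, i ∈ E → ∀ x, ∑ a, w i a * T E (Function.update x i a) = 0)
    (R B : Finset ι) {i : ι} (hB : i ∈ B) (x : ∀ i, V i) :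
    ∑ a, w i a * PP T R B (Function.update x i a) = 0 := by
  unfold PP
  simp only [mul_sum]
  rw [sum_comm]
  refine sum_eq_zero fun E hE => ?_
  rw [mem_filter] at hE
  refine hcen E i ?_ x
  have : i ∈ E ∩ R := by rw [hE.2]; exact hB
  exact (mem_inter.mp this).1

/-- the step for one coordinate, at fixed values of all other variables -/
lemma step_pt (hw : ∀ i a, 0 ≤ w i a) (hs : ∀ i, ∑ a, w i a = 1)
    (hloc : ∀ E i, i ∉ E → ∀ x a, T E (Function.update x i a) = T E x)
    (hcen : ∀ E i, i ∈ E → ∀ x, ∑ a, w i a * T E (Function.update x i a) = 0)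
    {Q : ℕ} (hQ : Even Q) (h4 : 4 ≤ Q) (S R : Finset ι) {i : ι} (hiR : i ∉ R) (hiS : i ∉ S)
    (x : ∀ i, V i) (eps : ∀ i, V i → Bool) :
    ∑ a, w i a * (ZZ w (PP T R) S R (Function.update x i a) eps) ^ Q
      ≤ ∑ e : V i → Bool, (1 / 2 : ℝ) ^ Fintype.card (V i)
            * (ZZ w (PP T (insert i R)) S (insert i R) x (Function.update eps i e)) ^ Q
        + 3 * (Q : ℝ) ^ Q * ∑ a, w i a
            * (ZZ w (PP T (insert i R)) (insert i S) (insert i R) (Function.update x i a) eps) ^ Q := by
  have hok : ∀ y : (∀ i, Option (V i)), okk S R y → y i = none := fun y hy => hy i (Or.inr hiR)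
  have hnot : ∀ y : (∀ i, Option (V i)), okk S R y → i ∉ S ∪ sup y := by
    intro y hy hc
    rcases mem_union.mp hc with h | h
    · exact hiS h
    · rw [mem_sup, hok y hy] at h
      simp at h
  set A : ℝ := ZZ w (PP T (insert i R)) S R x eps with hA
  set f : V i → ℝ := fun a =>
    ZZ w (fun B => PP T (insert i R) (insert i B)) S R (Function.update x i a) eps with hf
  -- (1)
  have h1 : ∀ a, ZZ w (PP T R) S R (Function.update x i a) eps = A + f a := by
    intro a
    rw [hA, hf]
    unfold ZZ
    rw [← sum_add_distrib]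
    refine sum_congr rfl fun y hy => ?_
    rw [mem_filter] at hy
    rw [PP_split R _ hiR (hnot y hy.2), mul_add]
    congr 1
    rw [ov_update y x (hok y hy.2), PP_indep hloc (insert i R) _ (mem_insert_self _ _) (hnot y hy.2)]
  -- (2) centred
  have h2 : ∑ a, w i a * f a = 0 := by
    rw [hf]
    simp only [ZZ, mul_sum]
    rw [sum_comm]
    refine sum_eq_zero fun y hy => ?_
    rw [mem_filter] at hy
    have h3 : ∀ a, w i a * ((∏ j, cf w j (y j) (eps j))
          * PP T (insert i R) (insert i (S ∪ sup y)) (ov y (Function.update x i a)))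
        = (∏ j, cf w j (y j) (eps j)) * (w i a
          * PP T (insert i R) (insert i (S ∪ sup y)) (Function.update (ov y x) i a)) := by
      intro a
      rw [ov_update y x (hok y hy.2)]
      ring
    simp only [h3]
    rw [← mul_sum, PP_cen hcen (insert i R) _ (mem_insert_self _ _), mul_zero]
  -- (4)
  have h4' : ∀ e : V i → Bool,
      ZZ w (PP T (insert i R)) S (insert i R) x (Function.update eps i e)
        = A + ∑ a, 3 * Real.sqrt (w i a) * sg (e a) * f a := by
    intro e
    rw [hA, hf]
    simp only [ZZ, mul_sum]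
    rw [sum_okk S R hiR hiS, sum_comm, ← sum_add_distrib]
    refine sum_congr rfl fun y hy => ?_
    rw [mem_filter] at hy
    rw [prod_eps w y eps (hok y hy.2)]
    congr 1
    refine sum_congr rfl fun a _ => ?_
    rw [prod_some w y eps (hok y hy.2), sup_some, ov_some, ov_update y x (hok y hy.2),
      union_insert]
    ring
  -- (5)
  have h5 : ∀ a, ZZ w (PP T (insert i R)) (insert i S) (insert i R) (Function.update x i a) eps
      = f a := by
    intro a
    rw [hf]
    unfold ZZ
    refine sum_congr ?_ fun y hy => ?_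
    · ext y
      simp only [mem_filter, mem_univ, true_and]
      constructor
      · intro h j hj
        by_cases hji : j = i
        · subst hji; exact h j (Or.inl (mem_insert_self _ _))
        · refine h j ?_
          rcases hj with hj | hj
          · exact Or.inl (mem_insert_of_mem hj)
          · right
            rw [mem_insert]
            push Not
            exact ⟨hji, hj⟩
      · intro h j hj
        by_cases hji : j = i
        · subst hji; exact h j (Or.inr hiR)
        · refine h j ?_
          rcases hj with hj | hj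
          · rcases mem_insert.mp hj with h' | h'
            · exact absurd h' hji
            · exact Or.inl h'
          · right
            intro h'
            exact hj (mem_insert_of_mem h')
    · rw [insert_union]
  have key := rep1 (w i) (hw i) (hs i) f h2 A hQ h4
  simp only [h1, h4', h5]
  rw [← mul_sum]
  exact key

/-- uniform weights on the sign blocks -/
noncomputable def uw (V : ι → Type*) [∀ i, Fintype (V i)] (i : ι) (_ : V i → Bool) : ℝ :=
  (1 / 2 : ℝ) ^ Fintype.card (V i)

lemma uw_sum (i : ι) : ∑ e, uw V i e = 1 := by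
  unfold uw
  rw [sum_const, card_univ, Fintype.card_fun, Fintype.card_bool, nsmul_eq_mul]
  push_cast
  rw [← mul_pow]
  norm_num

lemma uw_nonneg (i : ι) (e : V i → Bool) : 0 ≤ uw V i e := by
  unfold uw; positivity

/-- the joint average -/
noncomputable def EE (w : ∀ i, V i → ℝ) (H : (∀ i, V i) → (∀ i, V i → Bool) → ℝ) : ℝ :=
  ∑ x, pw w x * ∑ eps, pw (uw V) eps * H x eps

lemma step_av (hw : ∀ i a, 0 ≤ w i a) (hs : ∀ i, ∑ a, w i a = 1)
    (hloc : ∀ E i, i ∉ E → ∀ x a, T E (Function.update x i a) = T E x)
    (hcen : ∀ E i, i ∈ E → ∀ x, ∑ a, w i a * T E (Function.update x i a) = 0)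
    {Q : ℕ} (hQ : Even Q) (h4 : 4 ≤ Q) (S R : Finset ι) {i : ι} (hiR : i ∉ R) (hiS : i ∉ S) :
    EE w (fun x eps => (ZZ w (PP T R) S R x eps) ^ Q)
      ≤ EE w (fun x eps => (ZZ w (PP T (insert i R)) S (insert i R) x eps) ^ Q)
        + 3 * (Q : ℝ) ^ Q
          * EE w (fun x eps => (ZZ w (PP T (insert i R)) (insert i S) (insert i R) x eps) ^ Q) := by
  unfold EE
  have hx : ∀ K : (∀ i, V i) → (∀ i, V i → Bool) → ℝ,
      ∑ x, pw w x * ∑ eps, pw (uw V) eps * K x eps
        = ∑ x, pw w x * ∑ eps, pw (uw V) eps * ∑ a, w i a * K (Function.update x i a) eps := by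
    intro K
    rw [pw_avg hs i]
    refine sum_congr rfl fun x _ => ?_
    congr 1
    simp only [mul_sum]
    rw [sum_comm]
    refine sum_congr rfl fun eps _ => sum_congr rfl fun a _ => ?_
    ring
  have he : ∀ K : (∀ i, V i) → (∀ i, V i → Bool) → ℝ,
      ∑ x, pw w x * ∑ eps, pw (uw V) eps * K x eps
        = ∑ x, pw w x * ∑ eps, pw (uw V) eps
            * ∑ e : V i → Bool, (1 / 2 : ℝ) ^ Fintype.card (V i) * K x (Function.update eps i e) := by
    intro K
    refine sum_congr rfl fun x _ => ?_
    congr 1
    exact pw_avg (w := uw V) (fun i => uw_sum i) i (K x)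
  rw [hx (fun x eps => (ZZ w (PP T R) S R x eps) ^ Q),
    he (fun x eps => (ZZ w (PP T (insert i R)) S (insert i R) x eps) ^ Q),
    hx (fun x eps => (ZZ w (PP T (insert i R)) (insert i S) (insert i R) x eps) ^ Q)]
  rw [mul_sum, ← sum_add_distrib]
  refine sum_le_sum fun x _ => ?_
  have : pw w x * (∑ eps, pw (uw V) eps * ∑ e : V i → Bool, (1 / 2 : ℝ) ^ Fintype.card (V i)
        * (ZZ w (PP T (insert i R)) S (insert i R) x (Function.update eps i e)) ^ Q)
      + 3 * (Q : ℝ) ^ Q * (pw w x * ∑ eps, pw (uw V) eps * ∑ a, w i a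
        * (ZZ w (PP T (insert i R)) (insert i S) (insert i R) (Function.update x i a) eps) ^ Q)
      = pw w x * ∑ eps, pw (uw V) eps * (∑ e : V i → Bool, (1 / 2 : ℝ) ^ Fintype.card (V i)
        * (ZZ w (PP T (insert i R)) S (insert i R) x (Function.update eps i e)) ^ Q
        + 3 * (Q : ℝ) ^ Q * ∑ a, w i a
        * (ZZ w (PP T (insert i R)) (insert i S) (insert i R) (Function.update x i a) eps) ^ Q) := by
    simp only [mul_add, sum_add_distrib, mul_sum]
    congr 1
    refine sum_congr rfl fun eps _ => sum_congr rfl fun a _ => ?_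
    ring
  rw [this]
  refine mul_le_mul_of_nonneg_left ?_ (pw_nonneg hw x)
  refine sum_le_sum fun eps _ => ?_
  refine mul_le_mul_of_nonneg_left ?_ (pw_nonneg (fun i e => uw_nonneg i e) eps)
  exact step_pt hw hs hloc hcen hQ h4 S R hiR hiS x eps

/-- **tensorised replacement**, up to the set `R` -/
theorem replace_R (hw : ∀ i a, 0 ≤ w i a) (hs : ∀ i, ∑ a, w i a = 1)
    (hloc : ∀ E i, i ∉ E → ∀ x a, T E (Function.update x i a) = T E x)
    (hcen : ∀ E i, i ∈ E → ∀ x, ∑ a, w i a * T E (Function.update x i a) = 0)
    {Q : ℕ} (hQ : Even Q) (h4 : 4 ≤ Q) (R : Finset ι) :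
    ∑ x, pw w x * (∑ E, T E x) ^ Q
      ≤ ∑ S ∈ R.powerset, (3 * (Q : ℝ) ^ Q) ^ S.card
          * EE w (fun x eps => (ZZ w (PP T R) S R x eps) ^ Q) := by
  induction R using Finset.induction_on with
  | empty =>
    rw [powerset_empty, sum_singleton, card_empty, pow_zero, one_mul]
    have h0 : ∀ (x : ∀ i, V i) (eps : ∀ i, V i → Bool), ZZ w (PP T ∅) ∅ ∅ x eps = ∑ E, T E x := by
      intro x eps
      unfold ZZ
      have h1 : (univ : Finset (∀ i, Option (V i))).filter (okk ∅ ∅) = {fun _ => none} := by
        ext y
        simp only [mem_filter, mem_univ, true_and, mem_singleton]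
        constructor
        · intro h; funext i; exact h i (Or.inr (notMem_empty i))
        · rintro rfl i _; rfl
      rw [h1, sum_singleton]
      have h2 : ov (fun _ => none) x = x := by funext i; rfl
      have h3 : sup (fun _ => none : ∀ i, Option (V i)) = ∅ := by
        ext i; rw [mem_sup]; simp
      rw [h2, h3]
      simp [cf, PP]
    unfold EE
    simp only [h0]
    refine sum_le_sum fun x _ => ?_
    refine mul_le_mul_of_nonneg_left (le_of_eq ?_) (pw_nonneg hw x)
    rw [← sum_mul]
    have : ∑ eps, pw (uw V) eps = 1 := by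
      unfold pw
      rw [← Fintype.piFinset_univ, ← Finset.prod_univ_sum]
      simp only [uw_sum, prod_const_one]
    rw [this, one_mul]
  | insert i R hi ih =>
    refine ih.trans ?_
    rw [Finset.sum_powerset_insert hi, ← sum_add_distrib]
    refine sum_le_sum fun S hS => ?_
    have hiS : i ∉ S := fun h => hi (mem_powerset.mp hS h)
    rw [card_insert_of_notMem hiS]
    have h3 : (0 : ℝ) ≤ (3 * (Q : ℝ) ^ Q) ^ S.card := by positivity
    have := mul_le_mul_of_nonneg_left (step_av hw hs hloc hcen hQ h4 S R hi hiS) h3
    refine this.trans (le_of_eq ?_)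
    rw [pow_succ]
    ring

/-- the fully replaced chaos with pin set `S` -/
noncomputable def Zf (w : ∀ i, V i → ℝ) (T : Finset ι → (∀ i, V i) → ℝ) (S : Finset ι)
    (u : ∀ i, V i) (eps : ∀ i, V i → Bool) : ℝ :=
  ∑ y : (∀ i, Option (V i)) with (∀ i ∈ S, y i = none),
    (∏ j, cf w j (y j) (eps j)) * T (S ∪ sup y) (ov y u)

/-- **tensorised replacement** -/
theorem replace_all (hw : ∀ i a, 0 ≤ w i a) (hs : ∀ i, ∑ a, w i a = 1)
    (hloc : ∀ E i, i ∉ E → ∀ x a, T E (Function.update x i a) = T E x)
    (hcen : ∀ E i, i ∈ E → ∀ x, ∑ a, w i a * T E (Function.update x i a) = 0)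
    {Q : ℕ} (hQ : Even Q) (h4 : 4 ≤ Q) :
    ∑ x, pw w x * (∑ E, T E x) ^ Q
      ≤ ∑ S : Finset ι, (3 * (Q : ℝ) ^ Q) ^ S.card
          * EE w (fun x eps => (Zf w T S x eps) ^ Q) := by
  have h := replace_R hw hs hloc hcen hQ h4 (univ : Finset ι)
  rw [powerset_univ] at h
  refine h.trans (le_of_eq ?_)
  refine sum_congr rfl fun S _ => ?_
  congr 2
  funext x eps
  congr 1
  unfold ZZ Zf
  refine sum_congr ?_ fun y _ => ?_
  · ext y
    simp [okk]
  · congr 1
    unfold PP
    have : (univ : Finset (Finset ι)).filter (fun E => E ∩ univ = S ∪ sup y) = {S ∪ sup y} := by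
      ext E; simp
    rw [this, sum_singleton]

end

end Vale.Agent.P042.H322
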