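import Vale.Agent.P042.H322.Rep2

/-! The replaced chaos as a polynomial in signs indexed by `Fin N`: coefficients, `l²` norm,
complex evaluation. -/

namespace Vale.Agent.P042.H322

open Finset

set_option linter.unusedSectionVars false

variable {ι : Type*} [Fintype ι] [DecidableEq ι] {V : ι → Type*} [∀ i, Fintype (V i)]
  [∀ i, DecidableEq (V i)]

/-! ### averaging over one coordinate with values in a commutative ring -/

/-- product weight with values in `K` -/
def pwK {K : Type*} [CommRing K] {U : ι → Type*} (w : ∀ i, U i → K) (x : ∀ i, U i) : K :=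
  ∏ i, w i (x i)

lemma pwK_avg {K : Type*} [CommRing K] {U : ι → Type*} [∀ i, Fintype (U i)]
    {w : ∀ i, U i → K} (hs : ∀ i, ∑ a, w i a = 1) (i : ι) (H : (∀ i, U i) → K) :
    ∑ x, pwK w x * H x = ∑ x, pwK w x * ∑ a, w i a * H (Function.update x i a) := by
  have hR : ∑ x, pwK w x * ∑ a, w i a * H (Function.update x i a)
      = ∑ p : (∀ i, U i) × U i, pwK w p.1 * (w i p.2 * H (Function.update p.1 i p.2)) := by
    rw [Fintype.sum_prod_type]
    refine sum_congr rfl fun x _ => ?_
    rw [mul_sum]
  have hL : ∑ x, pwK w x * H x = ∑ p : (∀ i, U i) × U i, w i p.2 * (pwK w p.1 * H p.1) := by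
    rw [Fintype.sum_prod_type]
    refine sum_congr rfl fun x _ => ?_
    have : ∑ y, w i y * (pwK w x * H x) = pwK w x * H x := by
      rw [← sum_mul, hs, one_mul]
    exact this.symm
  rw [hL, hR]
  let e : (∀ i, U i) × U i ≃ (∀ i, U i) × U i :=
    { toFun := fun p => (Function.update p.1 i p.2, p.1 i)
      invFun := fun p => (Function.update p.1 i p.2, p.1 i)
      left_inv := by
        intro p; ext j
        · by_cases hj : j = i
          · subst hj; simp
          · simp [hj]
        · simp
      right_inv := by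
        intro p; ext j
        · by_cases hj : j = i
          · subst hj; simp
          · simp [hj]
        · simp }
  refine (Fintype.sum_equiv e _ _ fun p => ?_).symm
  obtain ⟨x, a⟩ := p
  simp only [e, Equiv.coe_fn_mk]
  have hp : ∀ y : ∀ i, U i, pwK w y = w i (y i) * ∏ j ∈ univ.erase i, w j (y j) := by
    intro y
    unfold pwK
    rw [mul_prod_erase univ (fun j => w j (y j)) (mem_univ i)]
  have hq : ∏ j ∈ univ.erase i, w j (Function.update x i a j)
      = ∏ j ∈ univ.erase i, w j (x j) := by
    refine prod_congr rfl fun j hj => ?_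
    have : j ≠ i := (mem_erase.mp hj).1
    simp [this]
  rw [hp x, hp (Function.update x i a), hq]
  simp only [Function.update_self]
  ring

lemma pwK_sum {K : Type*} [CommRing K] {U : ι → Type*} [∀ i, Fintype (U i)]
    {w : ∀ i, U i → K} (hs : ∀ i, ∑ a, w i a = 1) : ∑ x, pwK w x = 1 := by
  unfold pwK
  rw [← Fintype.piFinset_univ, ← Finset.prod_univ_sum]
  simp only [hs, prod_const_one]

/-- the weight of a partial assignment -/
def pk {K : Type*} [CommRing K] (h : ∀ i, V i → K) (y : ∀ i, Option (V i)) : K :=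
  ∏ j, (y j).elim 1 (h j)

lemma sum_sup_insert {K : Type*} [CommRing K] {E : Finset ι} {i : ι} (hi : i ∉ E)
    (F : (∀ i, Option (V i)) → K) :
    ∑ y : (∀ i, Option (V i)) with sup y = insert i E, F y
      = ∑ y : (∀ i, Option (V i)) with sup y = E, ∑ a, F (Function.update y i (some a)) := by
  rw [Finset.sum_sigma']
  refine Finset.sum_bij' (fun y hy => ⟨Function.update y i none, (y i).get (by
        have : i ∈ sup y := by rw [(mem_filter.mp hy).2]; exact mem_insert_self _ _
        exact mem_sup.mp this)⟩)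
    (fun p _ => Function.update p.1 i (some p.2)) ?_ ?_ ?_ ?_ ?_
  · intro y hy
    rw [mem_filter] at hy
    simp only [mem_sigma, mem_filter, mem_univ, true_and, and_true]
    ext j
    rw [mem_sup]
    by_cases hj : j = i
    · subst hj; simp [hi]
    · rw [Function.update_of_ne hj, ← mem_sup, hy.2, mem_insert]
      simp [hj]
  · intro p hp
    simp only [mem_sigma, mem_filter, mem_univ, true_and, and_true] at hp
    rw [mem_filter]
    exact ⟨mem_univ _, by rw [sup_some, hp]⟩
  · intro y hy
    simp
  · rintro ⟨y, a⟩ hp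
    simp only [mem_sigma, mem_filter, mem_univ, true_and, and_true] at hp
    have h0 : y i = none := by
      have : i ∉ sup y := by rw [hp]; exact hi
      rw [mem_sup] at this
      simpa using this
    have h1 : Function.update (Function.update y i (some a)) i none = y := by
      rw [Function.update_idem, ← h0, Function.update_eq_self]
    simp [h1]
  · intro y hy
    simp

lemma pk_some {K : Type*} [CommRing K] (h : ∀ i, V i → K) {y : ∀ i, Option (V i)} {i : ι}
    (hy : y i = none) (a : V i) : pk h (Function.update y i (some a)) = h i a * pk h y := by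
  unfold pk
  rw [← mul_prod_erase univ (fun j => (Function.update y i (some a) j).elim 1 (h j)) (mem_univ i),
    ← mul_prod_erase univ (fun j => (y j).elim 1 (h j)) (mem_univ i)]
  have h1 : ∏ j ∈ univ.erase i, (Function.update y i (some a) j).elim 1 (h j)
      = ∏ j ∈ univ.erase i, (y j).elim 1 (h j) := by
    refine prod_congr rfl fun j hj => ?_
    have : j ≠ i := (mem_erase.mp hj).1
    simp [this]
  rw [h1]
  simp [hy]

/-- **marginalisation** -/
lemma marg_sum {K : Type*} [CommRing K] {w : ∀ i, V i → K} (hs : ∀ i, ∑ a, w i a = 1)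
    (κ : ∀ i, V i → K) (E : Finset ι) (u : ∀ i, V i) (G : (∀ i, V i) → K) :
    ∑ y : (∀ i, Option (V i)) with sup y = E, pk (fun j a => κ j a * w j a) y * G (ov y u)
      = ∑ x, pwK w x * ((∏ j ∈ E, κ j (x j)) * G (E.piecewise x u)) := by
  induction E using Finset.induction_on generalizing G with
  | empty =>
    have h1 : (univ : Finset (∀ i, Option (V i))).filter (fun y => sup y = ∅)
        = {fun _ => none} := by
      ext y
      simp only [mem_filter, mem_univ, true_and, mem_singleton]
      constructor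
      · intro h; funext i
        have : i ∉ sup y := by rw [h]; exact notMem_empty i
        rw [mem_sup] at this
        simpa using this
      · rintro rfl
        ext i; rw [mem_sup]; simp
    rw [h1, sum_singleton]
    have h2 : ov (fun _ => none) u = u := by funext i; rfl
    rw [h2]
    simp only [prod_empty, one_mul, piecewise_empty]
    rw [← sum_mul, pwK_sum hs]
    simp [pk]
  | insert i E hi ih =>
    rw [sum_sup_insert hi]
    have hL : ∑ y : (∀ i, Option (V i)) with sup y = E, ∑ a,
          pk (fun j a => κ j a * w j a) (Function.update y i (some a))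
            * G (ov (Function.update y i (some a)) u)
        = ∑ y : (∀ i, Option (V i)) with sup y = E, pk (fun j a => κ j a * w j a) y
            * (fun z => ∑ a, κ i a * w i a * G (Function.update z i a)) (ov y u) := by
      refine sum_congr rfl fun y hy => ?_
      rw [mem_filter] at hy
      have h0 : y i = none := by
        have : i ∉ sup y := by rw [hy.2]; exact hi
        rw [mem_sup] at this
        simpa using this
      simp only [mul_sum]
      refine sum_congr rfl fun a _ => ?_
      rw [pk_some _ h0, ov_some]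
      ring
    rw [hL, ih (fun z => ∑ a, κ i a * w i a * G (Function.update z i a))]
    rw [pwK_avg hs i (fun x => (∏ j ∈ insert i E, κ j (x j)) * G ((insert i E).piecewise x u))]
    refine sum_congr rfl fun x _ => ?_
    congr 1
    rw [mul_sum]
    refine sum_congr rfl fun a _ => ?_
    rw [prod_insert hi]
    have h1 : ∏ j ∈ E, κ j (Function.update x i a j) = ∏ j ∈ E, κ j (x j) := by
      refine prod_congr rfl fun j hj => ?_
      have : j ≠ i := fun h => hi (h ▸ hj)
      simp [this]
    have h2 : (insert i E).piecewise (Function.update x i a) u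
        = Function.update (E.piecewise x u) i a := by
      funext j
      by_cases hj : j = i
      · subst hj; simp
      · rw [Function.update_of_ne hj]
        by_cases hjE : j ∈ E
        · rw [piecewise_eq_of_mem _ _ _ (mem_insert_of_mem hjE), piecewise_eq_of_mem _ _ _ hjE,
            Function.update_of_ne hj]
        · rw [piecewise_eq_of_notMem _ _ _ (by simp [hj, hjE]), piecewise_eq_of_notMem _ _ _ hjE]
    rw [h1, h2, Function.update_self]
    ring

/-! ### the graph of a partial assignment -/

/-- the graph -/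
def gr (y : ∀ i, Option (V i)) : Finset (Σ i, V i) := univ.sigma fun j => (y j).toFinset

lemma mem_gr {y : ∀ i, Option (V i)} {p : Σ i, V i} : p ∈ gr y ↔ y p.1 = some p.2 := by
  unfold gr
  rw [mem_sigma]
  simp [Option.mem_toFinset]

lemma gr_inj : Function.Injective (gr (V := V)) := by
  intro y y' h
  funext i
  rcases hy : y i with _ | a
  · rcases hy' : y' i with _ | b
    · rfl
    · exfalso
      have : (⟨i, b⟩ : Σ i, V i) ∈ gr y := by rw [h]; exact mem_gr.mpr hy'
      have := mem_gr.mp this
      rw [hy] at this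
      exact absurd this (by simp)
  · have : (⟨i, a⟩ : Σ i, V i) ∈ gr y' := by rw [← h]; exact mem_gr.mpr hy
    exact (mem_gr.mp this).symm

lemma prod_gr {K : Type*} [CommRing K] (y : ∀ i, Option (V i)) (g : (Σ i, V i) → K) :
    ∏ p ∈ gr y, g p = pk (fun j a => g ⟨j, a⟩) y := by
  unfold gr pk
  rw [prod_sigma]
  refine prod_congr rfl fun j _ => ?_
  rcases y j with _ | a
  · simp
  · simp

lemma card_gr (y : ∀ i, Option (V i)) : (gr y).card = (sup y).card := by
  unfold gr sup
  rw [card_sigma, card_filter]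
  refine sum_congr rfl fun j _ => ?_
  rcases y j with _ | a
  · simp
  · simp

/-- number of letters -/
noncomputable abbrev NN (V : ι → Type*) [∀ i, Fintype (V i)] : ℕ := Fintype.card (Σ i, V i)

/-- a numbering of the letters -/
noncomputable def eqv (V : ι → Type*) [∀ i, Fintype (V i)] : (Σ i, V i) ≃ Fin (NN V) :=
  Fintype.equivFin _

/-- coefficients without signs -/
noncomputable def c0 (w : ∀ i, V i → ℝ) (T : Finset ι → (∀ i, V i) → ℝ) (S : Finset ι)
    (u : ∀ i, V i) (y : ∀ i, Option (V i)) : ℝ :=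
  pk (fun j a => 3 * Real.sqrt (w j a)) y * T (S ∪ sup y) (ov y u)

/-- **the coefficients of the polynomial in signs** -/
noncomputable def cc (w : ∀ i, V i → ℝ) (T : Finset ι → (∀ i, V i) → ℝ) (S : Finset ι)
    (u : ∀ i, V i) (F : Finset (Fin (NN V))) : ℝ :=
  ∑ y : (∀ i, Option (V i)) with (∀ i ∈ S, y i = none),
    if (gr y).map (eqv V).toEmbedding = F then c0 w T S u y else 0

/-- sums over `F` of a function times the coefficient -/
lemma sum_cc {K : Type*} [CommRing K] (φ : ℝ →+* K) (w : ∀ i, V i → ℝ)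
    (T : Finset ι → (∀ i, V i) → ℝ) (S : Finset ι) (u : ∀ i, V i)
    (H : Finset (Fin (NN V)) → K) :
    ∑ F, φ (cc w T S u F) * H F
      = ∑ y : (∀ i, Option (V i)) with (∀ i ∈ S, y i = none),
          φ (c0 w T S u y) * H ((gr y).map (eqv V).toEmbedding) := by
  unfold cc
  simp only [map_sum, sum_mul]
  rw [sum_comm]
  refine sum_congr rfl fun y _ => ?_
  rw [Finset.sum_eq_single ((gr y).map (eqv V).toEmbedding)]
  · simp
  · intro F _ hF
    rw [if_neg (fun h => hF h.symm), map_zero, zero_mul]
  · intro h; exact absurd (mem_univ _) h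

lemma cc_map (w : ∀ i, V i → ℝ) (T : Finset ι → (∀ i, V i) → ℝ) (S : Finset ι)
    (u : ∀ i, V i) {y : ∀ i, Option (V i)} (hy : ∀ i ∈ S, y i = none) :
    cc w T S u ((gr y).map (eqv V).toEmbedding) = c0 w T S u y := by
  unfold cc
  rw [Finset.sum_eq_single y]
  · simp
  · intro y' _ hy'
    rw [if_neg]
    intro h
    exact hy' (gr_inj (Finset.map_injective _ h))
  · intro h
    exact absurd (mem_filter.mpr ⟨mem_univ _, hy⟩) h

/-- the sum over partial assignments off `S` by domains -/
lemma sum_by_sup {K : Type*} [CommRing K] (S : Finset ι) (F : (∀ i, Option (V i)) → K) :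
    ∑ y : (∀ i, Option (V i)) with (∀ i ∈ S, y i = none), F y
      = ∑ E : Finset ι with Disjoint E S,
          ∑ y : (∀ i, Option (V i)) with sup y = E, F y := by
  rw [Finset.sum_sigma']
  refine Finset.sum_bij' (fun y _ => ⟨sup y, y⟩) (fun p _ => p.2) ?_ ?_ ?_ ?_ ?_
  · intro y hy
    rw [mem_filter] at hy
    simp only [mem_sigma, mem_filter, mem_univ, true_and, and_true]
    rw [Finset.disjoint_left]
    intro i hi hiS
    rw [mem_sup, hy.2 i hiS] at hi
    simp at hi
  · rintro ⟨E, y⟩ hp
    simp only [mem_sigma, mem_filter, mem_univ, true_and] at hp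
    rw [mem_filter]
    refine ⟨mem_univ _, fun i hi => ?_⟩
    have : i ∉ sup y := by
      rw [hp.2]; exact fun h => Finset.disjoint_left.mp hp.1 h hi
    rw [mem_sup] at this
    simpa using this
  · intro y hy; rfl
  · rintro ⟨E, y⟩ hp
    simp only [mem_sigma, mem_filter, mem_univ, true_and] at hp
    simp [hp.2]
  · intro y hy; rfl

lemma pk_mul {K : Type*} [CommRing K] (g h : ∀ i, V i → K) (y : ∀ i, Option (V i)) :
    pk g y * pk h y = pk (fun j a => g j a * h j a) y := by
  unfold pk
  rw [← prod_mul_distrib]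
  refine prod_congr rfl fun j _ => ?_
  rcases y j with _ | a <;> simp

lemma map_pk {K L : Type*} [CommRing K] [CommRing L] (φ : K →+* L) (g : ∀ i, V i → K)
    (y : ∀ i, Option (V i)) : φ (pk g y) = pk (fun j a => φ (g j a)) y := by
  unfold pk
  rw [map_prod]
  refine prod_congr rfl fun j _ => ?_
  rcases y j with _ | a <;> simp

lemma pk_congr {K : Type*} [CommRing K] {g h : ∀ i, V i → K} (hgh : ∀ i a, g i a = h i a)
    (y : ∀ i, Option (V i)) : pk g y = pk h y := by
  have : g = h := by funext i a; exact hgh i a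
  rw [this]

/-- **(b2)** the `l²` norm of the coefficients -/
theorem sum_cc_sq {w : ∀ i, V i → ℝ} (hw : ∀ i a, 0 ≤ w i a) (hs : ∀ i, ∑ a, w i a = 1)
    (T : Finset ι → (∀ i, V i) → ℝ) (S : Finset ι) (u : ∀ i, V i) :
    ∑ F, cc w T S u F ^ 2
      = ∑ E : Finset ι with Disjoint E S,
          9 ^ E.card * ∑ x, pw w x * T (S ∪ E) (E.piecewise x u) ^ 2 := by
  have h1 : ∑ F, cc w T S u F ^ 2 = ∑ F, (RingHom.id ℝ) (cc w T S u F) * cc w T S u F := by
    refine sum_congr rfl fun F _ => ?_
    simp [sq]
  rw [h1, sum_cc, sum_by_sup]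
  refine sum_congr rfl fun E hE => ?_
  rw [mem_filter] at hE
  have h2 : ∑ y : (∀ i, Option (V i)) with sup y = E,
        (RingHom.id ℝ) (c0 w T S u y) * cc w T S u ((gr y).map (eqv V).toEmbedding)
      = ∑ y : (∀ i, Option (V i)) with sup y = E,
        pk (fun j a => 9 * w j a) y * (fun z => T (S ∪ E) z ^ 2) (ov y u) := by
    refine sum_congr rfl fun y hy => ?_
    rw [mem_filter] at hy
    have hy0 : ∀ i ∈ S, y i = none := by
      intro i hi
      have : i ∉ sup y := by
        rw [hy.2]; exact fun h => Finset.disjoint_left.mp hE.2 h hi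
      rw [mem_sup] at this
      simpa using this
    rw [cc_map w T S u hy0]
    simp only [RingHom.id_apply, c0, hy.2]
    have h3 : pk (fun j a => 3 * Real.sqrt (w j a)) y * pk (fun j a => 3 * Real.sqrt (w j a)) y
        = pk (fun j a => 9 * w j a) y := by
      rw [pk_mul]
      refine pk_congr (fun j a => ?_) y
      have := Real.mul_self_sqrt (hw j a)
      calc 3 * Real.sqrt (w j a) * (3 * Real.sqrt (w j a))
          = 9 * (Real.sqrt (w j a) * Real.sqrt (w j a)) := by ring
        _ = 9 * w j a := by rw [this]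
    rw [← h3]
    ring
  rw [h2]
  have h4 := marg_sum hs (fun _ _ => (9 : ℝ)) E u (fun z => T (S ∪ E) z ^ 2)
  rw [h4, mul_sum]
  refine sum_congr rfl fun x _ => ?_
  rw [prod_const]
  have : pwK w x = pw w x := rfl
  rw [this]
  ring

/-- **(b3)** complex evaluation of the polynomial -/
theorem sum_cc_complex {w : ∀ i, V i → ℝ} (hw : ∀ i a, 0 ≤ w i a) (hs : ∀ i, ∑ a, w i a = 1)
    (T : Finset ι → (∀ i, V i) → ℝ) (S : Finset ι) (u : ∀ i, V i) (z : Fin (NN V) → ℂ) :
    ∑ F, (cc w T S u F : ℂ) * ∏ i ∈ F, z i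
      = ∑ E : Finset ι with Disjoint E S,
          (3 : ℂ) ^ E.card * ∑ x, ((pw w x : ℝ) : ℂ) * ((T (S ∪ E) (E.piecewise x u) : ℂ)
            * ∏ j ∈ E, (z (eqv V ⟨j, x j⟩) / (Real.sqrt (w j (x j)) : ℂ))) := by
  have h1 := sum_cc Complex.ofRealHom w T S u (fun F => ∏ i ∈ F, z i)
  have h0 : ∑ F, (cc w T S u F : ℂ) * ∏ i ∈ F, z i
      = ∑ F, Complex.ofRealHom (cc w T S u F) * ∏ i ∈ F, z i := rfl
  rw [h0, h1, sum_by_sup]
  refine sum_congr rfl fun E hE => ?_
  have h2 : ∑ y : (∀ i, Option (V i)) with sup y = E,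
        Complex.ofRealHom (c0 w T S u y) * ∏ i ∈ (gr y).map (eqv V).toEmbedding, z i
      = ∑ y : (∀ i, Option (V i)) with sup y = E,
        pk (fun j a => (3 * (z (eqv V ⟨j, a⟩) / (Real.sqrt (w j a) : ℂ))) * ((w j a : ℝ) : ℂ)) y
          * (fun v => ((T (S ∪ E) v : ℝ) : ℂ)) (ov y u) := by
    refine sum_congr rfl fun y hy => ?_
    rw [mem_filter] at hy
    rw [prod_map]
    have hp := prod_gr y (fun p => z ((eqv V).toEmbedding p))
    rw [hp]
    simp only [c0, map_mul, hy.2, map_pk Complex.ofRealHom]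
    have h3 : pk (fun j a => Complex.ofRealHom 3 * Complex.ofRealHom (Real.sqrt (w j a))) y
          * pk (fun j a => z ((eqv V).toEmbedding ⟨j, a⟩)) y
        = pk (fun j a => (3 * (z (eqv V ⟨j, a⟩) / (Real.sqrt (w j a) : ℂ))) * ((w j a : ℝ) : ℂ)) y := by
      rw [pk_mul]
      refine pk_congr (fun j a => ?_) y
      have hz : z ((eqv V).toEmbedding ⟨j, a⟩) = z (eqv V ⟨j, a⟩) := rfl
      rw [hz]
      have h5 : Complex.ofRealHom 3 = 3 := by simp
      have h6 : Complex.ofRealHom (Real.sqrt (w j a)) = (Real.sqrt (w j a) : ℂ) := rfl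
      rw [h5, h6]
      by_cases h0 : w j a = 0
      · rw [h0]; simp
      · have hpos : 0 < w j a := lt_of_le_of_ne (hw j a) (Ne.symm h0)
        have hsq : (Real.sqrt (w j a) : ℂ) ≠ 0 := by
          rw [Ne, Complex.ofReal_eq_zero]
          exact (Real.sqrt_pos.mpr hpos).ne'
        have h7 : ((w j a : ℝ) : ℂ) = (Real.sqrt (w j a) : ℂ) * (Real.sqrt (w j a) : ℂ) := by
          rw [← Complex.ofReal_mul, Real.mul_self_sqrt (hw j a)]
        rw [h7]
        field_simp
    rw [← h3]
    have h8 : Complex.ofRealHom (T (S ∪ E) (ov y u)) = ((T (S ∪ E) (ov y u) : ℝ) : ℂ) := rfl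
    rw [h8]
    ring
  rw [h2]
  have hsC : ∀ i, ∑ a, ((w i a : ℝ) : ℂ) = 1 := by
    intro i
    rw [← Complex.ofReal_sum, hs, Complex.ofReal_one]
  have h4 := marg_sum hsC (fun j a => 3 * (z (eqv V ⟨j, a⟩) / (Real.sqrt (w j a) : ℂ))) E u
    (fun v => ((T (S ∪ E) v : ℝ) : ℂ))
  rw [h4, mul_sum]
  refine sum_congr rfl fun x _ => ?_
  rw [prod_mul_distrib, prod_const]
  have : pwK (fun j a => ((w j a : ℝ) : ℂ)) x = ((pw w x : ℝ) : ℂ) := by
    unfold pwK pw
    rw [Complex.ofReal_prod]
  rw [this]
  ring

/-- polynomial in signs -/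
noncomputable def poly {N : ℕ} (c : Finset (Fin N) → ℝ) (s : Fin N → Bool) : ℝ :=
  ∑ F, c F * ∏ i ∈ F, sg (s i)

lemma Zf_eq_poly (w : ∀ i, V i → ℝ) (T : Finset ι → (∀ i, V i) → ℝ) (S : Finset ι)
    (u : ∀ i, V i) (eps : ∀ i, V i → Bool) :
    Zf w T S u eps
      = poly (cc w T S u) (fun k => eps ((eqv V).symm k).1 ((eqv V).symm k).2) := by
  unfold poly
  have h1 := sum_cc (RingHom.id ℝ) w T S u
    (fun F => ∏ k ∈ F, sg (eps ((eqv V).symm k).1 ((eqv V).symm k).2))
  simp only [RingHom.id_apply] at h1
  rw [h1]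
  unfold Zf
  refine sum_congr rfl fun y _ => ?_
  rw [prod_map]
  have h2 : ∏ p ∈ gr y, sg (eps ((eqv V).symm ((eqv V).toEmbedding p)).1
        ((eqv V).symm ((eqv V).toEmbedding p)).2)
      = ∏ p ∈ gr y, sg (eps p.1 p.2) := by
    refine prod_congr rfl fun p _ => ?_
    have hp : (eqv V).symm ((eqv V).toEmbedding p) = p := (eqv V).symm_apply_apply p
    rw [hp]
  rw [h2, prod_gr y (fun p => sg (eps p.1 p.2))]
  unfold c0
  have h3 : ∏ j, cf w j (y j) (eps j)
      = pk (fun j a => 3 * Real.sqrt (w j a)) y * pk (fun j a => sg (eps j a)) y := by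
    rw [pk_mul]
    unfold pk
    refine prod_congr rfl fun j _ => ?_
    rcases y j with _ | a <;> simp [cf]
  rw [h3]
  ring

/-- the average over the blocks is the uniform average on the cube -/
lemma avg_eq (H : (Fin (NN V) → Bool) → ℝ) :
    ∑ eps : (∀ i, V i → Bool), pw (uw V) eps
        * H (fun k => eps ((eqv V).symm k).1 ((eqv V).symm k).2)
      = (1 / 2 : ℝ) ^ NN V * ∑ s, H s := by
  have h1 : ∀ eps : (∀ i, V i → Bool), pw (uw V) eps = (1 / 2 : ℝ) ^ NN V := by
    intro eps
    unfold pw uw NN
    rw [prod_pow_eq_pow_sum, Fintype.card_sigma]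
  simp only [h1]
  rw [← mul_sum]
  congr 1
  let e : (∀ i, V i → Bool) ≃ (Fin (NN V) → Bool) :=
    (Equiv.piCurry (fun i (_ : V i) => Bool)).symm.trans
      ((eqv V).arrowCongr (Equiv.refl Bool))
  refine Fintype.sum_equiv e _ _ fun eps => ?_
  congr 1

end Vale.Agent.P042.H322
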